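import Vale.Agent.H27P314.Lower

/-!
# P314: a lower bound for matrix hitting sets of noncommutative formulas
-/

open Vale.Agent.H27P314

universe u

namespace Vale.Agent.Results.P314.HittingLower

/-- **Lower bounds for hitting sets**: total dimension of the large tuples, and total number of
matrix entries. -/
theorem result (F : Type u) [Field F] (n : ℕ) (hn : 2 ≤ n) (s k : ℕ) (H : Finset (Point F n))
    (hH : IsHitting s H) :
    s ≤ 4 * (∑ T ∈ H with k ≤ T.1, T.1) + (k + 2).factorial + 2 ∧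
      (2 * ((k + 2).factorial + 2) ≤ s →
        s ≤ 8 * (∑ T ∈ H with k ≤ T.1, T.1) ∧ n * k * s ≤ 8 * ∑ T ∈ H, n * T.1 ^ 2) := by
  have h := main hn s k H hH
  refine ⟨h, fun hs => ?_⟩
  have h8 : s ≤ 8 * (∑ T ∈ H with k ≤ T.1, T.1) := by omega
  refine ⟨h8, ?_⟩
  have h9 : k * (∑ T ∈ H with k ≤ T.1, T.1) ≤ ∑ T ∈ H, T.1 ^ 2 := by
    rw [Finset.mul_sum]
    refine le_trans (Finset.sum_le_sum (g := fun T : Point F n => T.1 ^ 2) fun T hT => ?_)
      (Finset.sum_le_sum_of_subset (Finset.filter_subset _ _))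
    have := (Finset.mem_filter.1 hT).2
    rw [pow_two]
    exact Nat.mul_le_mul_right _ this
  rw [← Finset.mul_sum]
  calc n * k * s ≤ n * k * (8 * (∑ T ∈ H with k ≤ T.1, T.1)) := Nat.mul_le_mul_left _ h8
    _ = 8 * (n * (k * (∑ T ∈ H with k ≤ T.1, T.1))) := by ring
    _ ≤ 8 * (n * ∑ T ∈ H, T.1 ^ 2) :=
      Nat.mul_le_mul_left _ (Nat.mul_le_mul_left _ h9)

end Vale.Agent.Results.P314.HittingLower
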