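import Vale.Agent.P314.Horner
import Vale.Agent.P314.Comm

/-!
# P314: lower bounds for black-box hitting sets of noncommutative formulas

Let a finite family of tuples of matrices hit every nonzero polynomial computed by a
noncommutative formula of size at most `s` in `n ≥ 2` variables, over any field. Then the total
dimension of the family is at least `s/4`, and even the total dimension of the members of
dimension larger than `k` is more than `(s - 4^(k-1) (4k+11))/4`, for every `k ≥ 1`.
-/

namespace Vale.Agent.Results.P314.HittingSetDimension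

open Vale.Agent.P314 Polynomial

theorem result {F : Type*} [Field F] {n : ℕ} (hn : 2 ≤ n) {ι : Type*} [Fintype ι] {s : ℕ}
    {dim : ι → ℕ} {T : (i : ι) → Fin n → Matrix (Fin (dim i)) (Fin (dim i)) F}
    (h : IsHitting s dim T) :
    s ≤ 4 * ∑ i, dim i ∧
    ∀ k : ℕ, 1 ≤ k → s < 4 * ∑ i with k < dim i, dim i + 4 ^ (k - 1) * (4 * k + 11) := by
  refine ⟨total_dim (by omega) h, fun k hk1 => ?_⟩
  by_contra hc
  push Not at hc
  let x : Fin n := ⟨0, by omega⟩
  let y : Fin n := ⟨1, by omega⟩
  have hxy : x ≠ y := by simp [x, y]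
  let p : F[X] := ∏ i with k < dim i, (T i x).charpoly
  have hmonic : p.Monic := monic_prod_of_monic _ _ fun i _ => (T i x).charpoly_monic
  have hdeg : p.natDegree ≤ ∑ i with k < dim i, dim i := by
    refine (natDegree_prod_le _ _).trans (Finset.sum_le_sum fun i _ => ?_)
    rw [Matrix.charpoly_natDegree_eq_dim, Fintype.card_fin]
  obtain ⟨φ, h1, h2⟩ := exists_horner (F := F) x _ p hdeg
  have h3 := WF_size (F := F) x y k (k - 1) k (by omega) le_rfl
  have hne : (Formula.mul φ (WF F x y (k - 1) k)).poly ≠ 0 := by
    simp only [Formula.poly_var, Formula.poly_const, Formula.poly_add, Formula.poly_mul, h1, WF_poly]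
    exact mul_ne_zero (aeval_ι_ne_zero x hmonic.ne_zero) (W_ne_zero hxy hk1)
  obtain ⟨i, hi⟩ := h (.mul φ (WF F x y (k - 1) k)) (by simp only [Formula.size_var, Formula.size_const, Formula.size_add, Formula.size_mul]; omega) hne
  apply hi
  simp only [Formula.poly_var, Formula.poly_const, Formula.poly_add, Formula.poly_mul, map_mul]
  by_cases hk : k < dim i
  · rw [h1, ← Polynomial.aeval_algHom_apply, FreeAlgebra.lift_ι_apply]
    have hdvd : (T i x).charpoly ∣ p :=
      Finset.dvd_prod_of_mem _ (by simp [hk])
    obtain ⟨q, hq⟩ := hdvd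
    rw [hq, map_mul, Matrix.aeval_self_charpoly, zero_mul, zero_mul]
  · have h4 := map_W (A := FreeAlgebra F (Fin n)) (B := Matrix (Fin (dim i)) (Fin (dim i)) F)
      (FreeAlgebra.lift F (T i)).toRingHom (FreeAlgebra.ι F x) (FreeAlgebra.ι F y) (k - 1) k
    have h5 : (FreeAlgebra.lift F (T i)) (W (FreeAlgebra.ι F x) (FreeAlgebra.ι F y) (k - 1) k)
        = 0 := by
      refine h4.trans ?_
      have e1 : (FreeAlgebra.lift F (T i)).toRingHom (FreeAlgebra.ι F x) = T i x :=
        FreeAlgebra.lift_ι_apply _ _
      have e2 : (FreeAlgebra.lift F (T i)).toRingHom (FreeAlgebra.ι F y) = T i y :=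
        FreeAlgebra.lift_ι_apply _ _
      rw [e1, e2]
      exact W_vanish hk1 (by omega) _ _
    rw [WF_poly, h5, mul_zero]

end Vale.Agent.Results.P314.HittingSetDimension
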